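import Vale.Agent.Lib.P012_helper15.Defs

/-!
# P012, task T7: from short divisor representations to short Egyptian fractions
-/

namespace Vale.Agent.Lib.P012
open Finset

/-- sum of `d / M` over divisors `d` of `M`, rewritten as a sum of unit fractions. -/
private lemma sum_image_div (M k : ℕ) (hM : 0 < M) (hk : 0 < k) (D : Finset ℕ)
    (hD : ∀ d ∈ D, d ∣ M) :
    ∑ n ∈ D.image (fun d => k * (M / d)), (1 / n : ℚ) = (∑ d ∈ D, d : ℕ) / ((k : ℚ) * M) := by
  have hinj : Set.InjOn (fun d => k * (M / d)) (D : Set ℕ) := by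
    intro d hd e he hde
    have h1 : M / d = M / e := Nat.eq_of_mul_eq_mul_left hk hde
    obtain ⟨x, hx⟩ := hD d hd
    obtain ⟨y, hy⟩ := hD e he
    have hd0 : 0 < d := Nat.pos_of_dvd_of_pos (hD d hd) hM
    have he0 : 0 < e := Nat.pos_of_dvd_of_pos (hD e he) hM
    have h2 : M / d = x := by rw [hx]; exact Nat.mul_div_cancel_left x hd0
    have h3 : M / e = y := by rw [hy]; exact Nat.mul_div_cancel_left y he0
    have hxy : x = y := by rw [← h2, ← h3, h1]
    have hx0 : 0 < x := by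
      rcases Nat.eq_zero_or_pos x with h | h
      · subst h; simp at hx; omega
      · exact h
    have : d * x = e * x := by rw [← hx, hxy, ← hy]
    exact Nat.eq_of_mul_eq_mul_right hx0 this
  rw [Finset.sum_image hinj]
  push_cast
  rw [Finset.sum_div]
  refine Finset.sum_congr rfl ?_
  intro d hd
  obtain ⟨x, hx⟩ := hD d hd
  have hd0 : 0 < d := Nat.pos_of_dvd_of_pos (hD d hd) hM
  have h2 : M / d = x := by rw [hx]; exact Nat.mul_div_cancel_left x hd0
  have hx0 : 0 < x := by
    rcases Nat.eq_zero_or_pos x with h | h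
    · subst h; simp at hx; omega
    · exact h
  rw [h2, hx]
  have hdq : (d : ℚ) ≠ 0 := by exact_mod_cast hd0.ne'
  have hxq : (x : ℚ) ≠ 0 := by exact_mod_cast hx0.ne'
  have hkq : (k : ℚ) ≠ 0 := by exact_mod_cast hk.ne'
  push_cast
  field_simp

theorem egyptian_of_rep (M : ℕ) (c : ℝ)
    (h : ∀ m < M, ∃ D : Finset ℕ, (∀ d ∈ D, d ∣ M) ∧ ∑ d ∈ D, d = m ∧ (D.card : ℝ) ≤ c)
    (a b : ℕ) (ha : 1 ≤ a) (hab : a < b) (hbM : b ≤ M) :
    ∃ S : Finset ℕ, (∀ n ∈ S, 2 ≤ n) ∧ (S.card : ℝ) ≤ 2 * c ∧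
      ∑ n ∈ S, (1 / n : ℚ) = a / b := by
  have hb : 0 < b := by omega
  have hM : 0 < M := by omega
  set q := a * M / b with hq
  set r := a * M % b with hr
  have hqr : b * q + r = a * M := Nat.div_add_mod (a * M) b
  have hrb : r < b := Nat.mod_lt _ hb
  have hqM : q < M := by
    rw [hq, Nat.div_lt_iff_lt_mul hb]
    calc a * M < b * M := Nat.mul_lt_mul_of_pos_right hab hM
      _ = M * b := Nat.mul_comm _ _
  obtain ⟨D1, hD1, hs1, hc1⟩ := h q hqM
  obtain ⟨D2, hD2, hs2, hc2⟩ := h r (lt_of_lt_of_le hrb hbM)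
  set S1 := D1.image (fun d => 1 * (M / d)) with hS1
  set S2 := D2.image (fun d => b * (M / d)) with hS2
  -- bounds on the members
  have hle1 : ∀ d ∈ D1, d ≤ q := by
    intro d hd
    rw [← hs1]
    exact Finset.single_le_sum (f := fun d => d) (fun _ _ => Nat.zero_le _) hd
  have hle2 : ∀ d ∈ D2, d ≤ r := by
    intro d hd
    rw [← hs2]
    exact Finset.single_le_sum (f := fun d => d) (fun _ _ => Nat.zero_le _) hd
  have hmem1 : ∀ n ∈ S1, 2 ≤ n ∧ n ≤ M := by
    intro n hn
    rw [hS1, Finset.mem_image] at hn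
    obtain ⟨d, hd, rfl⟩ := hn
    obtain ⟨x, hx⟩ := hD1 d hd
    have hd0 : 0 < d := Nat.pos_of_dvd_of_pos (hD1 d hd) hM
    have h2 : M / d = x := by rw [hx]; exact Nat.mul_div_cancel_left x hd0
    have hdM : d < M := lt_of_le_of_lt (hle1 d hd) hqM
    rw [one_mul, h2]
    constructor
    · by_contra hlt
      have hx1 : x ≤ 1 := by omega
      have : d * x ≤ d * 1 := Nat.mul_le_mul_left d hx1
      omega
    · calc x = 1 * x := (one_mul x).symm
        _ ≤ d * x := Nat.mul_le_mul_right x hd0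
        _ = M := hx.symm
  have hmem2 : ∀ n ∈ S2, M < n := by
    intro n hn
    rw [hS2, Finset.mem_image] at hn
    obtain ⟨d, hd, rfl⟩ := hn
    obtain ⟨x, hx⟩ := hD2 d hd
    have hd0 : 0 < d := Nat.pos_of_dvd_of_pos (hD2 d hd) hM
    have h2 : M / d = x := by rw [hx]; exact Nat.mul_div_cancel_left x hd0
    have hdb : d < b := lt_of_le_of_lt (hle2 d hd) hrb
    have hx0 : 0 < x := by
      rcases Nat.eq_zero_or_pos x with h | h
      · subst h; simp at hx; omega
      · exact h
    rw [h2]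
    calc M = d * x := hx
      _ < b * x := Nat.mul_lt_mul_of_pos_right hdb hx0
  have hdisj : Disjoint S1 S2 := by
    rw [Finset.disjoint_left]
    intro n h1 h2
    have := (hmem1 n h1).2
    have := hmem2 n h2
    omega
  refine ⟨S1 ∪ S2, ?_, ?_, ?_⟩
  · intro n hn
    rcases Finset.mem_union.mp hn with h1 | h2
    · exact (hmem1 n h1).1
    · have := hmem2 n h2
      omega
  · have h1 : (S1.card : ℝ) ≤ D1.card := by exact_mod_cast Finset.card_image_le
    have h2 : (S2.card : ℝ) ≤ D2.card := by exact_mod_cast Finset.card_image_le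
    have h3 : ((S1 ∪ S2).card : ℝ) ≤ S1.card + S2.card := by
      exact_mod_cast Finset.card_union_le S1 S2
    linarith
  · rw [Finset.sum_union hdisj, hS1, hS2, sum_image_div M 1 hM one_pos D1 hD1,
      sum_image_div M b hM hb D2 hD2, hs1, hs2]
    have hbq : (b : ℚ) ≠ 0 := by exact_mod_cast hb.ne'
    have hMq : (M : ℚ) ≠ 0 := by exact_mod_cast hM.ne'
    have hq' : (b : ℚ) * q + r = a * M := by exact_mod_cast hqr
    push_cast
    field_simp
    linarith

end Vale.Agent.Lib.P012
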