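import Vale.Agent.Lib.P012_helper5.Defs
import Vale.Agent.Lib.P012_helper12.LLAssembly

/-!
# P012c, module A : assembly (greedy head, Euclid, base-`M` digit chain)
-/

namespace Vale.Agent.Lib.P012c

open Finset
open Vale.Agent.Lib.P012b

/-- the elements of a set of unit fractions with total `< 1 / L` are all `> L`. -/
theorem asmc_large (S : Finset ℕ) (L : ℕ) (hS : ∀ n ∈ S, 1 ≤ n)
    (hx : ∑ n ∈ S, (1 / n : ℚ) < 1 / L) : ∀ n ∈ S, L < n := by
  intro n hn
  by_contra hcon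
  have hnL : n ≤ L := not_lt.mp hcon
  have hn1 : 1 ≤ n := hS n hn
  have hnq : (0 : ℚ) < n := by exact_mod_cast hn1
  have h1 : (1 / n : ℚ) ≤ ∑ m ∈ S, (1 / m : ℚ) :=
    Finset.single_le_sum (f := fun m : ℕ => (1 / m : ℚ)) (fun m _ => by positivity) hn
  have h2 : (1 : ℚ) / L ≤ 1 / n := by
    apply one_div_le_one_div_of_le hnq
    exact_mod_cast hnL
  linarith

/-- adding two representations living at different scales. -/
theorem asmc_add {t₁ t₂ L₁ L₂ : ℕ} {x₁ x₂ : ℚ} (h₁ : URep t₁ x₁ L₁) (h₂ : URep t₂ x₂ L₂)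
    (hx : x₂ < 1 / L₁) (hL : L₁ ≤ L₂) : URep (t₁ + t₂) (x₁ + x₂) L₂ := by
  obtain ⟨S₁, c₁, r₁, s₁⟩ := h₁
  obtain ⟨S₂, c₂, r₂, s₂⟩ := h₂
  have hbig : ∀ n ∈ S₂, L₁ < n :=
    asmc_large S₂ L₁ (fun n hn => (r₂ n hn).1) (by rw [s₂]; exact hx)
  have hdis : Disjoint S₁ S₂ := by
    rw [Finset.disjoint_left]
    intro n hn1 hn2
    have := (r₁ n hn1).2
    have := hbig n hn2
    omega
  refine ⟨S₁ ∪ S₂, ?_, ?_, ?_⟩
  · have := Finset.card_union_le S₁ S₂
    omega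
  · intro n hn
    rcases Finset.mem_union.mp hn with h | h
    · have := r₁ n h
      exact ⟨this.1, this.2.trans hL⟩
    · exact r₂ n h
  · rw [Finset.sum_union hdis, s₁, s₂]

/-- base-`M` digit chain. -/
theorem asmc_chain (Z M t : ℕ) (hM : 2 ≤ M)
    (hdigit : ∀ B : ℕ, Z ∣ B → 0 < B → ∀ c < M, URep t ((c : ℚ) / B) B) :
    ∀ (J B q : ℕ), Z ∣ B → 0 < B → q < M ^ J →
      URep (t * J) ((q : ℚ) / ((B * M ^ J : ℕ) : ℚ)) (B * M ^ J) := by
  intro J
  induction J with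
  | zero =>
    intro B q _ _ hq
    have hq0 : q = 0 := by simpa using hq
    subst hq0
    exact ⟨∅, by simp, by simp, by simp⟩
  | succ J ih =>
    intro B q hZB hB hq
    have hM0 : 0 < M := by omega
    have hMJ : 0 < M ^ J := pow_pos hM0 J
    have hBM : 0 < B * M := Nat.mul_pos hB hM0
    set c := q / M ^ J with hc
    set q' := q % M ^ J with hq'
    have hqq : M ^ J * c + q' = q := Nat.div_add_mod _ _
    have hq'lt : q' < M ^ J := Nat.mod_lt _ hMJ
    have hcM : c < M := by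
      rw [hc, Nat.div_lt_iff_lt_mul hMJ]
      calc q < M ^ (J + 1) := hq
        _ = M * M ^ J := by ring
    have h₁ := hdigit (B * M) (Dvd.dvd.mul_right hZB M) hBM c hcM
    have h₂ := ih (B * M) q' (Dvd.dvd.mul_right hZB M) hBM hq'lt
    have hBq : (0 : ℚ) < B := by exact_mod_cast hB
    have hMq : (0 : ℚ) < M := by exact_mod_cast hM0
    have hMJq : (0 : ℚ) < (M : ℚ) ^ J := by positivity
    have hx : (q' : ℚ) / ((B * M * M ^ J : ℕ) : ℚ) < 1 / ((B * M : ℕ) : ℚ) := by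
      push_cast
      rw [div_lt_div_iff₀ (by positivity) (by positivity)]
      have : (q' : ℚ) < (M : ℚ) ^ J := by exact_mod_cast hq'lt
      nlinarith [mul_pos hBq hMq]
    have hL : B * M ≤ B * M * M ^ J := Nat.le_mul_of_pos_right _ hMJ
    have h₃ := asmc_add h₁ h₂ hx hL
    have e1 : t + t * J = t * (J + 1) := by ring
    have e2 : B * M * M ^ J = B * M ^ (J + 1) := by ring
    have e3 : (c : ℚ) / ((B * M : ℕ) : ℚ) + (q' : ℚ) / ((B * M * M ^ J : ℕ) : ℚ)
        = (q : ℚ) / ((B * M ^ (J + 1) : ℕ) : ℚ) := by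
      have hqq' : (q : ℚ) = (M : ℚ) ^ J * c + q' := by exact_mod_cast hqq.symm
      rw [hqq']
      push_cast
      field_simp
      ring
    rw [e1, e3, e2] at h₃
    exact h₃

theorem assembly (Z M t κ J : ℕ) (hZ2 : 2 ≤ Z) (hZκ : Z ≤ 2 ^ 2 ^ κ) (hM : 2 ≤ M)
    (hdigit : ∀ B : ℕ, Z ∣ B → 0 < B → ∀ c < M, URep t ((c : ℚ) / B) B)
    (a b : ℕ) (ha : 1 ≤ a) (hab : a < b) (hJ : b * Z ^ 2 ≤ M ^ J) :
    ∃ S : Finset ℕ, (∀ n ∈ S, 2 ≤ n) ∧ S.card ≤ κ + 1 + 2 * (t * J) ∧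
      ∑ n ∈ S, (1 / n : ℚ) = a / b := by
  have hb0 : 0 < b := by omega
  have hbq : (0 : ℚ) < b := by exact_mod_cast hb0
  have hZ0 : 0 < Z := by omega
  have hZq : (0 : ℚ) < Z := by exact_mod_cast hZ0
  have hx0 : (0 : ℚ) ≤ (a : ℚ) / b := by positivity
  have hx1 : (a : ℚ) / b < 1 := by
    rw [div_lt_one hbq]; exact_mod_cast hab
  obtain ⟨G, hG1, hG2, hG3, hG4, hG5⟩ := greedy κ Z hZ2 hZκ ((a : ℚ) / b) hx0 hx1
  set Lam := ∏ e ∈ G, e with hLam
  have hLam0 : 0 < Lam := Finset.prod_pos (fun e he => by have := (hG1 e he).1; omega)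
  have hLamq : (0 : ℚ) < Lam := by exact_mod_cast hLam0
  set T := ∑ e ∈ G, Lam / e with hT
  have hTq : (T : ℚ) = (Lam : ℚ) * ∑ e ∈ G, (1 / e : ℚ) :=
    asm_sum_div G (fun e he => by have := (hG1 e he).1; omega)
  set σ := ∑ e ∈ G, (1 / e : ℚ) with hσ
  set B0 := b * Lam with hB0
  have hB00 : 0 < B0 := Nat.mul_pos hb0 hLam0
  have hB0q : (0 : ℚ) < B0 := by exact_mod_cast hB00
  -- numerator
  have hle : b * T ≤ a * Lam := by
    have : ((b * T : ℕ) : ℚ) ≤ ((a * Lam : ℕ) : ℚ) := by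
      push_cast
      rw [hTq]
      have h1 : (a : ℚ) / b - σ = ((a : ℚ) * Lam - b * (Lam * σ)) / (b * Lam) := by
        field_simp
      rw [h1] at hG4
      have h2 : 0 ≤ (a : ℚ) * Lam - b * (Lam * σ) := by
        by_contra hneg
        have hneg' : (a : ℚ) * Lam - b * (Lam * σ) < 0 := not_le.mp hneg
        have : ((a : ℚ) * Lam - b * (Lam * σ)) / (b * Lam) < 0 :=
          div_neg_of_neg_of_pos hneg' (by positivity)
        linarith
      linarith
    exact_mod_cast this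
  obtain ⟨a', ha'⟩ : ∃ a' : ℕ, a' + b * T = a * Lam := ⟨a * Lam - b * T, by omega⟩
  have ha'q : (a' : ℚ) = (a : ℚ) * Lam - b * (Lam * σ) := by
    have : ((a' + b * T : ℕ) : ℚ) = ((a * Lam : ℕ) : ℚ) := by rw [ha']
    push_cast at this
    rw [hTq] at this
    linarith
  have hx' : (a : ℚ) / b - σ = (a' : ℚ) / B0 := by
    rw [ha'q, hB0]
    push_cast
    field_simp
  -- size facts
  set H := M ^ J with hH
  have hB0H : B0 ≤ H := by
    calc B0 = b * Lam := rfl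
      _ ≤ b * Z ^ 2 := Nat.mul_le_mul_left _ hG3
      _ ≤ H := hJ
  have hH0 : 0 < H := lt_of_lt_of_le hB00 hB0H
  set N := Z * H with hN
  have hN0 : 0 < N := Nat.mul_pos hZ0 hH0
  have hNq : (0 : ℚ) < N := by exact_mod_cast hN0
  have haZ : a' * Z < B0 := by
    rw [hx'] at hG5
    rw [div_lt_div_iff₀ hB0q hZq] at hG5
    have : ((a' * Z : ℕ) : ℚ) < ((B0 : ℕ) : ℚ) := by
      push_cast; linarith
    exact_mod_cast this
  set q := a' * N / B0 with hq
  set r := a' * N % B0 with hr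
  have hqr : B0 * q + r = a' * N := Nat.div_add_mod _ _
  have hrB : r < B0 := Nat.mod_lt _ hB00
  have hrH : r < H := lt_of_lt_of_le hrB hB0H
  have hqH : q < H := by
    have h1 : B0 * q ≤ a' * N := by omega
    have h2 : a' * N < B0 * H := by
      calc a' * N = (a' * Z) * H := by rw [hN]; ring
        _ < B0 * H := Nat.mul_lt_mul_of_pos_right haZ hH0
    exact Nat.lt_of_mul_lt_mul_left (lt_of_le_of_lt h1 h2)
  have hU1 := asmc_chain Z M t hM hdigit J Z q (dvd_refl Z) hZ0 hqH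
  have hU2 := asmc_chain Z M t hM hdigit J (B0 * Z) r (Dvd.intro_left B0 rfl)
    (Nat.mul_pos hB00 hZ0) hrH
  rw [← hH, ← hN] at hU1
  have eN : B0 * Z * M ^ J = B0 * N := by rw [hN, hH]; ring
  rw [eN] at hU2
  have hrq : (r : ℚ) < B0 := by exact_mod_cast hrB
  have hx2 : (r : ℚ) / ((B0 * N : ℕ) : ℚ) < 1 / (N : ℚ) := by
    push_cast
    rw [div_lt_div_iff₀ (by positivity) hNq]
    nlinarith
  have hNle : N ≤ B0 * N := Nat.le_mul_of_pos_left _ hB00
  have hU := asmc_add hU1 hU2 hx2 hNle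
  have hqrq : (B0 : ℚ) * q + r = a' * N := by exact_mod_cast hqr
  have h5 : (q : ℚ) / (N : ℚ) + (r : ℚ) / ((B0 * N : ℕ) : ℚ) = (a' : ℚ) / B0 := by
    push_cast
    rw [div_add_div _ _ hNq.ne' (by positivity), div_eq_div_iff (by positivity) hB0q.ne']
    have : (q : ℚ) * (B0 * N) + N * r = N * (B0 * q + r) := by ring
    rw [this, hqrq]
    ring
  rw [h5] at hU
  obtain ⟨S, cS, rS, sS⟩ := hU
  have hbig : ∀ n ∈ S, Z < n :=
    asmc_large S Z (fun n hn => (rS n hn).1) (by rw [sS, ← hx']; exact hG5)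
  have hdis : Disjoint G S := by
    rw [Finset.disjoint_left]
    intro n hn1 hn2
    have := (hG1 n hn1).2
    have := hbig n hn2
    omega
  refine ⟨G ∪ S, ?_, ?_, ?_⟩
  · intro n hn
    rcases Finset.mem_union.mp hn with h | h
    · exact (hG1 n h).1
    · have := hbig n h; omega
  · have := Finset.card_union_le G S
    omega
  · rw [Finset.sum_union hdis, sS, ← hx']
    ring

end Vale.Agent.Lib.P012c
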