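import Vale.Agent.Lib.P012_helper5.Defs

/-!
# P012c, module N4 : counting the moduli that are bad for the large block
-/

namespace Vale.Agent.Lib.P012c

open Finset
open Vale.Agent.Lib.P012b

theorem bad2_sum_choose (m K : ℕ) : ∑ j ∈ range (K + 1), m.choose j ≤ (m + 1) ^ K := by
  induction K with
  | zero => simp
  | succ K ih =>
    rw [Finset.sum_range_succ]
    have h1 : m.choose (K + 1) ≤ m ^ (K + 1) := Nat.choose_le_pow m (K + 1)
    have h2 : m ^ (K + 1) ≤ m * (m + 1) ^ K := by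
      rw [pow_succ, mul_comm]
      exact Nat.mul_le_mul_left _ (Nat.pow_le_pow_left (Nat.le_succ m) K)
    calc ∑ j ∈ range (K + 1), m.choose j + m.choose (K + 1)
        ≤ (m + 1) ^ K + m * (m + 1) ^ K := by omega
      _ = (m + 1) ^ (K + 1) := by ring

theorem bad2_card_subsets (U : Finset ℕ) (K : ℕ) :
    ((U.powerset).filter (fun Q => Q.card ≤ K)).card ≤ (U.card + 1) ^ K := by
  have hsub : (U.powerset).filter (fun Q => Q.card ≤ K)
      ⊆ (range (K + 1)).biUnion (fun j => powersetCard j U) := by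
    intro Q hQ
    rw [Finset.mem_filter, Finset.mem_powerset] at hQ
    rw [Finset.mem_biUnion]
    exact ⟨Q.card, Finset.mem_range.mpr (by omega), Finset.mem_powersetCard.mpr ⟨hQ.1, rfl⟩⟩
  calc ((U.powerset).filter (fun Q => Q.card ≤ K)).card
      ≤ ((range (K + 1)).biUnion (fun j => powersetCard j U)).card := Finset.card_le_card hsub
    _ ≤ ∑ j ∈ range (K + 1), (powersetCard j U).card := Finset.card_biUnion_le
    _ = ∑ j ∈ range (K + 1), U.card.choose j := by simp [Finset.card_powersetCard]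
    _ ≤ (U.card + 1) ^ K := bad2_sum_choose _ _

theorem bad2_card_primeFactors (D w : ℕ) (hD0 : D ≠ 0) (hD : D < 2 ^ w) :
    D.primeFactors.card ≤ w := by
  have h1 : 2 ^ D.primeFactors.card ≤ ∏ q ∈ D.primeFactors, q := by
    calc 2 ^ D.primeFactors.card = ∏ _q ∈ D.primeFactors, 2 := by simp
      _ ≤ ∏ q ∈ D.primeFactors, q :=
        Finset.prod_le_prod (fun _ _ => Nat.zero_le _)
          (fun q hq => (Nat.prime_of_mem_primeFactors hq).two_le)
  have h2 : ∏ q ∈ D.primeFactors, q ≤ D :=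
    Nat.le_of_dvd (Nat.pos_of_ne_zero hD0) (Nat.prod_primeFactors_dvd D)
  have h3 : 2 ^ D.primeFactors.card < 2 ^ w := by omega
  exact le_of_lt ((Nat.pow_lt_pow_iff_right (by norm_num)).mp h3)

/-- double counting: a family of sets of at most `K` primes has few collisions in total. -/
theorem bad2_sum_coll (A : Finset ℕ) (w K : ℕ) (hA : ∀ a ∈ A, a < 2 ^ w)
    (F : Finset (Finset ℕ)) (hFp : ∀ Q ∈ F, ∀ q ∈ Q, q.Prime) (hFK : ∀ Q ∈ F, Q.card ≤ K) :
    ∑ Q ∈ F, coll Q A ≤ A.card ^ 2 * (w + 1) ^ K := by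
  have h1 : ∀ Q ∈ F, coll Q A
      = ∑ p ∈ A.offDiag, if (∀ q ∈ Q, (q : ℤ) ∣ (p.1 : ℤ) - (p.2 : ℤ)) then 1 else 0 := by
    intro Q _
    unfold coll
    rw [Finset.card_filter]
  rw [Finset.sum_congr rfl h1, Finset.sum_comm]
  have h2 : ∀ p ∈ A.offDiag,
      (∑ Q ∈ F, if (∀ q ∈ Q, (q : ℤ) ∣ (p.1 : ℤ) - (p.2 : ℤ)) then 1 else 0) ≤ (w + 1) ^ K := by
    intro p hp
    rw [Finset.mem_offDiag] at hp
    obtain ⟨hp1, hp2, hne⟩ := hp
    rw [← Finset.card_filter]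
    set D := ((p.1 : ℤ) - (p.2 : ℤ)).natAbs with hD
    have hD0 : D ≠ 0 := by
      rw [hD]
      intro h0
      rw [Int.natAbs_eq_zero] at h0
      apply hne
      have : (p.1 : ℤ) = p.2 := by linarith
      exact_mod_cast this
    have hDw : D < 2 ^ w := by
      have a1 := hA _ hp1
      have a2 := hA _ hp2
      rw [hD]
      omega
    have hsub : F.filter (fun Q : Finset ℕ => ∀ q ∈ Q, ((q : ℕ) : ℤ) ∣ (p.1 : ℤ) - (p.2 : ℤ))
        ⊆ (D.primeFactors.powerset).filter (fun Q => Q.card ≤ K) := by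
      intro Q hQ
      rw [Finset.mem_filter] at hQ
      rw [Finset.mem_filter, Finset.mem_powerset]
      refine ⟨?_, hFK Q hQ.1⟩
      intro q hq
      rw [Nat.mem_primeFactors]
      refine ⟨hFp Q hQ.1 q hq, ?_, hD0⟩
      have := hQ.2 q hq
      rw [hD]
      exact Int.natCast_dvd.mp this
    calc (F.filter (fun Q : Finset ℕ => ∀ q ∈ Q, ((q : ℕ) : ℤ) ∣ (p.1 : ℤ) - (p.2 : ℤ))).card
        ≤ ((D.primeFactors.powerset).filter (fun Q => Q.card ≤ K)).card :=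
          Finset.card_le_card hsub
      _ ≤ (D.primeFactors.card + 1) ^ K := bad2_card_subsets _ _
      _ ≤ (w + 1) ^ K :=
          Nat.pow_le_pow_left (Nat.succ_le_succ (bad2_card_primeFactors D w hD0 hDw)) K
  calc ∑ p ∈ A.offDiag, ∑ Q ∈ F, (if (∀ q ∈ Q, (q : ℤ) ∣ (p.1 : ℤ) - (p.2 : ℤ)) then 1 else 0)
      ≤ ∑ _p ∈ A.offDiag, (w + 1) ^ K := Finset.sum_le_sum h2
    _ = A.offDiag.card * (w + 1) ^ K := by rw [Finset.sum_const, smul_eq_mul]
    _ ≤ A.card ^ 2 * (w + 1) ^ K := by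
        apply Nat.mul_le_mul_right
        rw [Finset.offDiag_card, sq]
        exact Nat.sub_le _ _

/-- the arithmetic core: failure of `NB` at a large modulus gives many collisions. -/
theorem bad2_core (n c P θ : ℕ) (hP : θ ^ 4 < P) (hNB : n ^ 8 < c ^ 4 * P ^ 3) :
    n ^ 2 * θ ≤ c * P := by
  by_contra hcon
  have hlt : c * P < n ^ 2 * θ := not_le.mp hcon
  have h1 : (c * P) ^ 4 < (n ^ 2 * θ) ^ 4 := Nat.pow_lt_pow_left hlt (by norm_num)
  have h2 : (n ^ 2 * θ) ^ 4 = n ^ 8 * θ ^ 4 := by ring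
  have h3 : (c * P) ^ 4 = c ^ 4 * P ^ 3 * P := by ring
  have h4 : n ^ 8 * θ ^ 4 ≤ c ^ 4 * P ^ 3 * P := Nat.mul_le_mul hNB.le hP.le
  omega

theorem bad2_count (A : Finset ℕ) (w K θ X : ℕ) (hA : ∀ a ∈ A, a < 2 ^ w)
    (hθ : (w + 1) ^ K * 2 ^ 15 ≤ θ) (T : Finset ℕ) (hT : T ⊆ Icc 1 X)
    (h : ∀ g ∈ T, g.primeFactors.card ≤ K ∧ ∃ Q ⊆ g.primeFactors,
      θ ^ 4 < ∏ q ∈ Q, q ∧ ¬ NB Q A) :
    T.card * 2 ^ 15 ≤ X := by
  classical
  have hch : ∀ g ∈ T, ∃ Q : Finset ℕ, Q ⊆ g.primeFactors ∧ θ ^ 4 < ∏ q ∈ Q, q ∧ ¬ NB Q A := by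
    intro g hg
    obtain ⟨Q, h1, h2, h3⟩ := (h g hg).2
    exact ⟨Q, h1, h2, h3⟩
  choose! Qf hQf using hch
  set F := T.image Qf with hF
  set n := A.card with hn
  have hFp : ∀ Q ∈ F, ∀ q ∈ Q, q.Prime := by
    intro Q hQ q hq
    obtain ⟨g, hg, rfl⟩ := Finset.mem_image.mp hQ
    exact Nat.prime_of_mem_primeFactors ((hQf g hg).1 hq)
  have hFK : ∀ Q ∈ F, Q.card ≤ K := by
    intro Q hQ
    obtain ⟨g, hg, rfl⟩ := Finset.mem_image.mp hQ
    exact (Finset.card_le_card (hQf g hg).1).trans (h g hg).1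
  have hsum := bad2_sum_coll A w K hA F hFp hFK
  have hfib : ∀ Q ∈ F, (T.filter (fun g => Qf g = Q)).card * (n ^ 2 * θ) ≤ X * coll Q A := by
    intro Q hQ
    obtain ⟨g₀, hg₀, hg₀Q⟩ := Finset.mem_image.mp hQ
    have hP : θ ^ 4 < ∏ q ∈ Q, q := by rw [← hg₀Q]; exact (hQf g₀ hg₀).2.1
    have hNB : ¬ NB Q A := by rw [← hg₀Q]; exact (hQf g₀ hg₀).2.2
    have hNB' : n ^ 8 < coll Q A ^ 4 * (∏ q ∈ Q, q) ^ 3 := by
      unfold NB at hNB
      exact not_le.mp hNB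
    have hcore := bad2_core n (coll Q A) (∏ q ∈ Q, q) θ hP hNB'
    have hcard : (T.filter (fun g => Qf g = Q)).card ≤ X / ∏ q ∈ Q, q := by
      rw [← Nat.Ioc_filter_dvd_card_eq_div]
      apply Finset.card_le_card
      intro g hg
      rw [Finset.mem_filter] at hg
      have hgI := Finset.mem_Icc.mp (hT hg.1)
      rw [Finset.mem_filter, Finset.mem_Ioc]
      refine ⟨⟨by omega, hgI.2⟩, ?_⟩
      rw [← hg.2]
      exact (Finset.prod_dvd_prod_of_subset _ _ _ (hQf g hg.1).1).trans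
        (Nat.prod_primeFactors_dvd g)
    calc (T.filter (fun g => Qf g = Q)).card * (n ^ 2 * θ)
        ≤ (X / ∏ q ∈ Q, q) * (coll Q A * ∏ q ∈ Q, q) := Nat.mul_le_mul hcard hcore
      _ = (X / (∏ q ∈ Q, q) * ∏ q ∈ Q, q) * coll Q A := by ring
      _ ≤ X * coll Q A := Nat.mul_le_mul_right _ (Nat.div_mul_le_self _ _)
  have htot : T.card * (n ^ 2 * θ) ≤ X * (n ^ 2 * (w + 1) ^ K) := by
    calc T.card * (n ^ 2 * θ)
        = ∑ Q ∈ F, (T.filter (fun g => Qf g = Q)).card * (n ^ 2 * θ) := by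
          rw [Finset.card_eq_sum_card_image Qf T, Finset.sum_mul]
      _ ≤ ∑ Q ∈ F, X * coll Q A := Finset.sum_le_sum hfib
      _ = X * ∑ Q ∈ F, coll Q A := by rw [Finset.mul_sum]
      _ ≤ X * (n ^ 2 * (w + 1) ^ K) := Nat.mul_le_mul_left _ hsum
  rcases Nat.eq_zero_or_pos n with hn0 | hn0
  · -- `A` is empty: `NB` always holds, so `T` is empty
    have hTe : T = ∅ := by
      by_contra hne
      obtain ⟨g, hg⟩ := Finset.nonempty_iff_ne_empty.mpr hne
      apply (hQf g hg).2.2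
      have hAe : A = ∅ := Finset.card_eq_zero.mp hn0
      unfold NB coll
      rw [hAe]
      simp
    rw [hTe]
    simp
  · have hW : 0 < (w + 1) ^ K := by positivity
    have hn2 : 0 < n ^ 2 := by positivity
    have h5 : (T.card * 2 ^ 15) * (n ^ 2 * (w + 1) ^ K) ≤ X * (n ^ 2 * (w + 1) ^ K) := by
      calc (T.card * 2 ^ 15) * (n ^ 2 * (w + 1) ^ K)
          = T.card * (n ^ 2 * ((w + 1) ^ K * 2 ^ 15)) := by ring
        _ ≤ T.card * (n ^ 2 * θ) :=
            Nat.mul_le_mul_left _ (Nat.mul_le_mul_left _ hθ)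
        _ ≤ X * (n ^ 2 * (w + 1) ^ K) := htot
    exact Nat.le_of_mul_le_mul_right h5 (Nat.mul_pos hn2 hW)

end Vale.Agent.Lib.P012c
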